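import Vale.Agent.P277Z.Gd.Wdg
import Vale.Agent.P277Z.Top.HbHI
import Vale.Agent.P277Z.Top.Defs

/-!
# P277Z, block TOP: the calculus of forms in the language of `Top/Defs`
-/

set_option linter.all false
set_option maxSynthPendingDepth 3

open scoped Manifold ContDiff Topology
open Vale.Agent.P272.K Set Filter Module MeasureTheory
open Vale.Agent.P267.H175 (SmAt dF dF_add dF_smul smAt_zero smAt_dF dF_dF dF_congr)
open Vale.Agent.P277 (wdg)
open Vale.Agent.P277.PH (HolF SmR)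
open Vale.Agent.P277.H619 (wdg_zero_left wdg_zero_right)
open Vale.Agent.P277Z.Tr (pb intG HolM intG_add intG_smul intG_dF smAt_pb dF_pb pb_comp pb_eq_zero)
open Vale.Agent.P277Z.Val (Sb)
open Vale.Agent.P277Z.Top
open Vale.Agent.P277Z.Top.H38 (IsDc ddc_at dcL)

noncomputable section

namespace Vale.Agent.P277Z.Gd

section alg

variable {d p q : ℕ} {M : Type}

theorem wd_add_left (a a' : Fr d p M) (b : Fr d q M) : wd (a + a') b = wd a b + wd a' b :=
  wg_add_left a a' b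

theorem wd_add_right (a : Fr d p M) (b b' : Fr d q M) : wd a (b + b') = wd a b + wd a b' :=
  wg_add_right a b b'

theorem wd_smul_left (c : ℝ) (a : Fr d p M) (b : Fr d q M) : wd (c • a) b = c • wd a b :=
  wg_smul_left c a b

theorem wd_smul_right (c : ℝ) (a : Fr d p M) (b : Fr d q M) : wd a (c • b) = c • wd a b :=
  wg_smul_right c a b

theorem wd_zero_left (b : Fr d q M) : wd (0 : Fr d p M) b = 0 := funext fun _ => wdg_zero_left _

theorem wd_zero_right (a : Fr d p M) : wd a (0 : Fr d q M) = 0 := funext fun _ => wdg_zero_right _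

theorem wd_neg_left (a : Fr d p M) (b : Fr d q M) : wd (-a) b = -wd a b := by
  rw [← neg_one_smul ℝ a, wd_smul_left, neg_one_smul]

theorem wd_sub_left (a a' : Fr d p M) (b : Fr d q M) : wd (a - a') b = wd a b - wd a' b := by
  rw [sub_eq_add_neg, wd_add_left, wd_neg_left, ← sub_eq_add_neg]

theorem wd_comm2 (a b : Fr d 2 M) : wd a b = wd b a := wg_comm2 a b

theorem wd_lcomm (a b : Fr d 2 M) (c : Fr d q M) : wd a (wd b c) = wd b (wd a c) := wg_lcomm a b c

theorem wd_assoc2 (a : Fr d 2 M) (b : Fr d p M) (c : Fr d q M) : wd (wd a b) c = wd a (wd b c) :=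
  wg_assoc2 a b c

end alg

section sm

variable {d p q : ℕ} {M : Type} [TopologicalSpace M] [ChartedSpace (Cm d) M]

theorem sm_zero : Sm (0 : Fr d p M) := smAt_zero

theorem sm_add {a b : Fr d p M} (ha : Sm a) (hb : Sm b) : Sm (a + b) := fun x => (ha x).add (hb x)

theorem sm_smul (c : ℝ) {a : Fr d p M} (ha : Sm a) : Sm (c • a) := fun x => (ha x).smul c

theorem sm_neg {a : Fr d p M} (ha : Sm a) : Sm (-a) := neg_one_smul ℝ a ▸ sm_smul (-1) ha

theorem sm_sub {a b : Fr d p M} (ha : Sm a) (hb : Sm b) : Sm (a - b) :=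
  sub_eq_add_neg a b ▸ sm_add ha (sm_neg hb)

theorem sm_sum {ι : Type*} (s : Finset ι) {a : ι → Fr d p M} (ha : ∀ i ∈ s, Sm (a i)) :
    Sm (∑ i ∈ s, a i) :=
  Finset.sum_induction a Sm (fun _ _ => sm_add) sm_zero ha

theorem sm_wd {a : Fr d p M} {b : Fr d q M} (ha : Sm a) (hb : Sm b) : Sm (wd a b) :=
  fun x => smAt_wg (ha x) (hb x)

theorem cl_sm {a : Fr d p M} (ha : Cl a) : Sm a := fun x => (ha x).1

theorem dF_wd {a : Fr d p M} {b : Fr d q M} {y : M} (ha : SmAt a y) (hb : SmAt b y)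
    (h0 : dF b y = 0) : dF (wd a b) y = wdg (dF a y) (b y) := dF_wg ha hb h0

theorem cl_wd {a : Fr d p M} {b : Fr d q M} (ha : Cl a) (hb : Cl b) : Cl (wd a b) := fun x =>
  ⟨smAt_wg (ha x).1 (hb x).1, by
    rw [dF_wd (ha x).1 (hb x).1 (hb x).2, (ha x).2]; exact wdg_zero_left (p := p + 1) _⟩

theorem isDc_dc (u : M → ℝ) (y : M) : IsDc (4 * Real.pi)⁻¹ u (dc d u) y := fun _ => rfl

theorem dc_eq (u : M → ℝ) (x : M) : dc d u x = dcL d (4 * Real.pi)⁻¹
    (fderiv ℝ (fun z => u ((chartAt (Cm d) x).symm z)) (chartAt (Cm d) x x)) := rfl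

theorem smR_chart {u : M → ℝ} {x : M} (h : SmR d u x) :
    ContDiffAt ℝ ∞ (fun z => u ((chartAt (Cm d) x).symm z)) (chartAt (Cm d) x x) :=
  h _ ⟨chart_mem_atlas _ _, mem_chart_source _ _⟩

theorem dc_add {u v : M → ℝ} {x : M} (hu : SmR d u x) (hv : SmR d v x) :
    dc d (fun y => u y + v y) x = dc d u x + dc d v x := by
  rw [dc_eq, dc_eq, dc_eq, ← map_add, fderiv_fun_add
    ((smR_chart hu).differentiableAt (by simp)) ((smR_chart hv).differentiableAt (by simp))]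

theorem dc_smul (c : ℝ) {u : M → ℝ} {x : M} (hu : SmR d u x) :
    dc d (fun y => c * u y) x = c • dc d u x := by
  rw [dc_eq, dc_eq, ← map_smul, fderiv_const_mul ((smR_chart hu).differentiableAt (by simp))]

theorem dc_const (c : ℝ) : dc d (fun _ : M => c) = 0 := by
  funext x
  rw [dc_eq, fderiv_fun_const]
  exact map_zero _

theorem ddc_const (c : ℝ) : ddc d (fun _ : M => c) = 0 := by
  funext x
  rw [ddc, dc_const]
  simpa using dF_smul 0 (0 : Fr d 1 M) x

theorem dc_congr {u v : M → ℝ} {x : M} (h : u =ᶠ[𝓝 x] v) : dc d u =ᶠ[𝓝 x] dc d v := by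
  filter_upwards [h.eventuallyEq_nhds] with y hy
  rw [dc_eq, dc_eq]
  congr 1
  exact EventuallyEq.fderiv_eq (Tr.ev_symm (mem_chart_source _ y) hy)

theorem ddc_congr {u v : M → ℝ} {x : M} (h : u =ᶠ[𝓝 x] v) : ddc d u x = ddc d v x :=
  dF_congr (dc_congr h)

variable [IsManifold 𝓘(ℂ, Cm d) ω M]

theorem smAt_dc {u : M → ℝ} {x : M} (h : ∀ᶠ y in 𝓝 x, SmR d u y) : SmAt (dc d u) x :=
  (ddc_at (Eventually.of_forall (isDc_dc u)) (h.mono fun _ => smR_chart)).1

theorem ddc_add {u v : M → ℝ} {x : M} (hu : ∀ᶠ y in 𝓝 x, SmR d u y)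
    (hv : ∀ᶠ y in 𝓝 x, SmR d v y) : ddc d (fun y => u y + v y) x = ddc d u x + ddc d v x := by
  rw [ddc, ddc, ddc, ← dF_add (smAt_dc hu) (smAt_dc hv)]
  exact dF_congr ((hu.and hv).mono fun y h => dc_add h.1 h.2)

theorem ddc_smul (c : ℝ) {u : M → ℝ} {x : M} (hu : ∀ᶠ y in 𝓝 x, SmR d u y) :
    ddc d (fun y => c * u y) x = c • ddc d u x := by
  rw [ddc, ddc, ← dF_smul]
  exact dF_congr (hu.mono fun y h => dc_smul c h)

theorem isEx_zero : IsEx (0 : Fr d 2 M) :=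
  ⟨fun _ => 0, fun x => ⟨fun _ _ => contDiffAt_const, by rw [ddc_const]⟩⟩

theorem isEx_add {a b : Fr d 2 M} (ha : IsEx a) (hb : IsEx b) : IsEx (a + b) := by
  obtain ⟨u, hu⟩ := ha
  obtain ⟨v, hv⟩ := hb
  refine ⟨fun y => u y + v y, fun x => ⟨fun e he => ((hu x).1 e he).add ((hv x).1 e he), ?_⟩⟩
  rw [ddc_add (.of_forall fun y => (hu y).1) (.of_forall fun y => (hv y).1), ← (hu x).2, ← (hv x).2]
  rfl

theorem isEx_smul (c : ℝ) {a : Fr d 2 M} (ha : IsEx a) : IsEx (c • a) := by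
  obtain ⟨u, hu⟩ := ha
  refine ⟨fun y => c * u y, fun x => ⟨fun e he => contDiffAt_const.mul ((hu x).1 e he), ?_⟩⟩
  rw [ddc_smul c (.of_forall fun y => (hu y).1), ← (hu x).2]
  rfl

theorem isEx_dF {a : Fr d 2 M} (ha : IsEx a) : ∃ β : Fr d 1 M, Sm β ∧ a = dF β := by
  obtain ⟨u, hu⟩ := ha
  exact ⟨dc d u, fun x => smAt_dc (.of_forall fun y => (hu y).1), funext fun x => (hu x).2⟩

theorem cl_dF {a : Fr d p M} (ha : Sm a) : Cl (dF a : Fr d (p + 1) M) := fun x =>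
  ⟨smAt_dF isOpen_univ (fun y _ => ha y) (mem_univ x),
    dF_dF isOpen_univ (fun y _ => ha y) (mem_univ x)⟩

end sm

section pull

variable {d d' p q : ℕ} {M S : Type} [TopologicalSpace M] [ChartedSpace (Cm d) M]
  [TopologicalSpace S] [ChartedSpace (Cm d') S] {f : S → M}

theorem pb_wd (f : S → M) (a : Fr d p M) (b : Fr d q M) :
    pb (Cm d') f (wd a b) = wd (pb (Cm d') f a) (pb (Cm d') f b) := pb_wg f a b

theorem pb_zero (f : S → M) : pb (Cm d') f (0 : Fr d p M) = 0 := rfl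

theorem pb_neg (f : S → M) (a : Fr d p M) : pb (Cm d') f (-a) = -pb (Cm d') f a := rfl

theorem sb_holM (h : Sb d' d f) : HolM d' d f :=
  ⟨h.cont, fun x e e' he he' => (h.holo x e e' he he').1⟩

theorem pb_apply2 (hf : HolM d' d f) (a : Fr d 2 M) (x : S) (v w : Cm d') :
    pb (Cm d') f a x ![v, w] = a (f x) ![Tr.dM d' d f x v, Tr.dM d' d f x w] := by
  have h := (hf.2 x _ _ ⟨chart_mem_atlas _ _, mem_chart_source _ _⟩
    ⟨chart_mem_atlas _ _, mem_chart_source _ _⟩).differentiableAt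
  rw [pb, ContinuousAlternatingMap.compContinuousLinearMap_apply, h.fderiv_restrictScalars ℝ]
  congr 1
  funext i
  fin_cases i <;> rfl

theorem is11_pb (hf : HolM d' d f) {a : Fr d 2 M} (ha : Is11 a) : Is11 (pb (Cm d') f a) := by
  intro x v w
  rw [pb_apply2 hf, pb_apply2 hf, map_smul, map_smul, ha]

theorem psd_pb (hf : HolM d' d f) {a : Fr d 2 M} (ha : Psd a) : Psd (pb (Cm d') f a) := by
  intro x v
  rw [pb_apply2 hf, map_smul]
  exact ha _ _

theorem pd_pb (hf : Sb d' d f) {a : Fr d 2 M} (ha : Pd a) : Pd (pb (Cm d') f a) := by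
  intro x v hv
  rw [pb_apply2 (sb_holM hf), map_smul]
  refine ha _ _ fun h0 => hv ?_
  exact (hf.holo x _ _ ⟨chart_mem_atlas _ _, mem_chart_source _ _⟩
    ⟨chart_mem_atlas _ _, mem_chart_source _ _⟩).2 (h0.trans (map_zero _).symm)

variable [IsManifold 𝓘(ℂ, Cm d) ω M] [IsManifold 𝓘(ℂ, Cm d') ω S]

theorem sm_pb (hf : HolM d' d f) {a : Fr d p M} (ha : Sm a) : Sm (pb (Cm d') f a) := fun _ =>
  smAt_pb (Eventually.of_forall hf.smM) (ha _)

theorem dF_hpb (hf : HolM d' d f) {a : Fr d p M} {x : S} (ha : SmAt a (f x)) :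
    dF (pb (Cm d') f a) x = pb (Cm d') f (dF a) x := dF_pb (Eventually.of_forall hf.smM) ha

theorem cl_pb (hf : HolM d' d f) {a : Fr d p M} (ha : Cl a) : Cl (pb (Cm d') f a) := fun x =>
  ⟨sm_pb hf (cl_sm ha) x, by rw [dF_hpb hf (ha _).1]; exact pb_eq_zero (ha _).2⟩

theorem pb_pb {d'' : ℕ} {T : Type} [TopologicalSpace T] [ChartedSpace (Cm d'') T]
    [IsManifold 𝓘(ℂ, Cm d'') ω T] {g : T → S} (hg : HolM d'' d' g) (hf : HolM d' d f)
    (a : Fr d p M) : pb (Cm d'') g (pb (Cm d') f a) = pb (Cm d'') (fun x => f (g x)) a :=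
  funext fun x => pb_comp a (hg.smM x) (hf.smM _)

theorem holM_comp {d'' : ℕ} {T : Type} [TopologicalSpace T] [ChartedSpace (Cm d'') T]
    {g : T → S} (hf : HolM d' d f) (hg : HolM d'' d' g) : HolM d'' d fun x => f (g x) := by
  refine ⟨hf.1.comp hg.1, fun x e e' he he' => ?_⟩
  have h0 : At (chartAt (Cm d') (g x)) (g x) := ⟨chart_mem_atlas _ _, mem_chart_source _ _⟩
  have h1 := hg.2 x e _ he h0
  have h2 := hf.2 (g x) _ e' h0 he'
  refine (AnalyticAt.comp_of_eq h2 h1 (by rw [he.left_inv])).congr ?_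
  filter_upwards [Tr.ev_symm he.2 (hg.1.continuousAt.preimage_mem_nhds
    ((chartAt (Cm d') (g x)).open_source.mem_nhds h0.2))] with z hz
  simp only [Function.comp_apply]
  rw [(chartAt (Cm d') (g x)).left_inv hz]

theorem smR_comp (hf : HolM d' d f) {u : M → ℝ} {x : S} (hu : SmR d u (f x)) :
    SmR d' (fun y => u (f y)) x := by
  intro e he
  have h0 : At (chartAt (Cm d) (f x)) (f x) := ⟨chart_mem_atlas _ _, mem_chart_source _ _⟩
  have h1 : ContDiffAt ℝ ∞ (fun z => chartAt (Cm d) (f x) (f (e.symm z))) (e x) :=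
    ((hf.2 x e _ he h0).contDiffAt.restrict_scalars ℝ).of_le le_top
  refine (ContDiffAt.comp (e x) (by rw [he.left_inv]; exact hu _ h0) h1).congr_of_eventuallyEq ?_
  filter_upwards [Tr.ev_symm he.2 (hf.1.continuousAt.preimage_mem_nhds
    ((chartAt (Cm d) (f x)).open_source.mem_nhds h0.2))] with z hz
  simp only [Function.comp_apply]
  rw [(chartAt (Cm d) (f x)).left_inv hz]

theorem pb_dc (hf : HolM d' d f) {u : M → ℝ} {x : S} (hu : SmR d u (f x)) :
    pb (Cm d') f (dc d u) x = dc d' (fun y => u (f y)) x := by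
  have h0 : At (chartAt (Cm d) (f x)) (f x) := ⟨chart_mem_atlas _ _, mem_chart_source _ _⟩
  have he : At (chartAt (Cm d') x) x := ⟨chart_mem_atlas _ _, mem_chart_source _ _⟩
  have h := (hf.2 x _ _ he h0).differentiableAt
  have h1 : (fun z => u (f ((chartAt (Cm d') x).symm z))) =ᶠ[𝓝 (chartAt (Cm d') x x)]
      (fun z => u ((chartAt (Cm d) (f x)).symm z)) ∘
        fun z => chartAt (Cm d) (f x) (f ((chartAt (Cm d') x).symm z)) := by
    filter_upwards [Tr.ev_symm he.2 (hf.1.continuousAt.preimage_mem_nhds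
      ((chartAt (Cm d) (f x)).open_source.mem_nhds h0.2))] with z hz
    simp only [Function.comp_apply]
    rw [(chartAt (Cm d) (f x)).left_inv hz]
  ext v
  rw [dc_eq, H38.dcL_apply, h1.fderiv_eq, fderiv_comp _ (by
    rw [he.left_inv]; exact (smR_chart hu).differentiableAt (by simp)) (h.restrictScalars ℝ),
    he.left_inv, pb, ContinuousAlternatingMap.compContinuousLinearMap_apply, dc_eq,
    H38.dcL_apply, h.fderiv_restrictScalars ℝ]
  simp

theorem pb_ddc (hf : HolM d' d f) {u : M → ℝ} {x : S} (hu : ∀ᶠ y in 𝓝 (f x), SmR d u y) :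
    pb (Cm d') f (ddc d u) x = ddc d' (fun y => u (f y)) x := by
  rw [ddc, ddc, ← dF_hpb hf (smAt_dc hu)]
  exact dF_congr ((hf.1.continuousAt.eventually hu).mono fun y hy => pb_dc hf hy)

theorem isEx_pb (hf : HolM d' d f) {a : Fr d 2 M} (ha : IsEx a) : IsEx (pb (Cm d') f a) := by
  obtain ⟨u, hu⟩ := ha
  refine ⟨fun y => u (f y), fun x => ⟨smR_comp hf (hu _).1, ?_⟩⟩
  rw [← pb_ddc hf (.of_forall fun y => (hu y).1), show a = ddc d u from funext fun y => (hu y).2]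

end pull

section int

variable {d : ℕ} (X : Mf d)

theorem int_add {a b : Fr d (2 * d) X.M} (ha : Sm a) (hb : Sm b) :
    X.int (a + b) = X.int a + X.int b := intG_add volume _ ha hb

theorem int_smul (c : ℝ) (a : Fr d (2 * d) X.M) : X.int (c • a) = c * X.int a :=
  intG_smul volume _ c a

theorem int_zero : X.int 0 = 0 := Tr.intG_zero volume _

theorem int_neg (a : Fr d (2 * d) X.M) : X.int (-a) = -X.int a := by
  rw [← neg_one_smul ℝ a, int_smul, neg_one_mul]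

theorem int_sub {a b : Fr d (2 * d) X.M} (ha : Sm a) (hb : Sm b) :
    X.int (a - b) = X.int a - X.int b := Tr.intG_sub volume _ ha hb

theorem int_sum {ι : Type*} (s : Finset ι) {a : ι → Fr d (2 * d) X.M} (ha : ∀ i ∈ s, Sm (a i)) :
    X.int (∑ i ∈ s, a i) = ∑ i ∈ s, X.int (a i) := by
  classical
  induction s using Finset.induction_on with
  | empty => simpa using int_zero X
  | insert i s hi ih =>
    rw [Finset.sum_insert hi, Finset.sum_insert hi, int_add X (ha i (Finset.mem_insert_self i s))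
      (sm_sum s fun j hj => ha j (Finset.mem_insert_of_mem hj)),
      ih fun j hj => ha j (Finset.mem_insert_of_mem hj)]

/-- Stokes -/
theorem int_dF (X : Mf (d + 1)) {a : Fr (d + 1) (2 * d + 1) X.M} (ha : Sm a) :
    X.int (dF a) = 0 := intG_dF (n := 2 * d + 1) volume (tb (d + 1)) ha

theorem int_dF_wd (X : Mf (d + 1)) {β : Fr (d + 1) 1 X.M} {φ : Fr (d + 1) (2 * d) X.M} (hβ : Sm β)
    (hφ : Cl φ) : X.int (wd (p := 2) (dF β) φ) = 0 :=
  intG_dF_wg (p := 1) (q := 2 * d) volume (tb (d + 1)) hβ (cl_sm hφ) fun y => (hφ y).2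

theorem int_ex (X : Mf (d + 1)) {a : Fr (d + 1) 2 X.M} {φ : Fr (d + 1) (2 * d) X.M} (ha : IsEx a)
    (hφ : Cl φ) : X.int (wd a φ) = 0 := by
  obtain ⟨β, h1, rfl⟩ := isEx_dF ha
  exact int_dF_wd X h1 hφ

variable {X}

theorem c_cl (a : C11 X) : Cl a.1 := a.2.1

theorem c_sm (a : C11 X) : Sm a.1 := cl_sm a.2.1

variable (X) in
/-- the exact forms -/
def ExS : Submodule ℝ (C11 X) where
  carrier := {a | IsEx a.1}
  zero_mem' := isEx_zero
  add_mem' := isEx_add
  smul_mem' c _ h := isEx_smul c h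

/-- the pull back -/
def res {d' : ℕ} {S : Mf d'} {f : S.M → X.M} (hf : HolM d' d f) : C11 X →ₗ[ℝ] C11 S where
  toFun a := ⟨pb (Cm d') f a.1, cl_pb hf a.2.1, is11_pb hf a.2.2⟩
  map_add' _ _ := rfl
  map_smul' _ _ := rfl

/-- `a ↦ ∫ a ∧ φ` -/
def pair {X : Mf (d + 1)} {φ : Fr (d + 1) (2 * d) X.M} (hφ : Sm φ) : C11 X →ₗ[ℝ] ℝ where
  toFun a := X.int (wd a.1 φ)
  map_add' a b := by
    rw [Submodule.coe_add, wd_add_left]; exact int_add X (sm_wd (c_sm a) hφ) (sm_wd (c_sm b) hφ)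
  map_smul' c a := by
    rw [Submodule.coe_smul, wd_smul_left]; exact int_smul X c _

theorem pair_apply {X : Mf (d + 1)} {φ : Fr (d + 1) (2 * d) X.M} (hφ : Sm φ) (a : C11 X) :
    pair hφ a = X.int (wd a.1 φ) := rfl

theorem B2_comm (X : Mf 2) (x y : Fr 2 2 X.M) : B2 X x y = B2 X y x := by
  rw [B2, B2, wd_comm2]

theorem T3_12 (X : Mf 3) (x y z : Fr 3 2 X.M) : T3 X x y z = T3 X y x z := by
  rw [T3, T3, wd_lcomm]

theorem T3_23 (X : Mf 3) (x y z : Fr 3 2 X.M) : T3 X x y z = T3 X x z y := by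
  rw [T3, T3, wd_comm2 y]

/-- `B2` as a bilinear map -/
def B2L (X : Mf 2) : C11 X →ₗ[ℝ] C11 X →ₗ[ℝ] ℝ :=
  LinearMap.mk₂ ℝ (fun a b => B2 X a.1 b.1)
    (fun a a' b => (pair (d := 1) (c_sm b)).map_add a a')
    (fun c a b => (pair (d := 1) (c_sm b)).map_smul c a)
    (fun a b b' => by
      rw [B2_comm, B2_comm X a.1, B2_comm X a.1]; exact (pair (d := 1) (c_sm a)).map_add b b')
    (fun c a b => by rw [B2_comm, B2_comm X a.1]; exact (pair (d := 1) (c_sm a)).map_smul c b)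

theorem T3_add {X : Mf 3} (a a' b c : C11 X) :
    T3 X (a + a').1 b.1 c.1 = T3 X a.1 b.1 c.1 + T3 X a'.1 b.1 c.1 :=
  (pair (d := 2) (φ := wd b.1 c.1) (sm_wd (c_sm b) (c_sm c))).map_add a a'

theorem T3_smul {X : Mf 3} (r : ℝ) (a b c : C11 X) :
    T3 X (r • a).1 b.1 c.1 = r • T3 X a.1 b.1 c.1 :=
  (pair (d := 2) (φ := wd b.1 c.1) (sm_wd (c_sm b) (c_sm c))).map_smul r a

/-- `T3` as a trilinear map -/
def T3L (X : Mf 3) : C11 X →ₗ[ℝ] C11 X →ₗ[ℝ] C11 X →ₗ[ℝ] ℝ where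
  toFun a := LinearMap.mk₂ ℝ (fun b c => T3 X a.1 b.1 c.1)
    (fun b b' c => by rw [T3_12, T3_add, T3_12 X b.1, T3_12 X b'.1])
    (fun r b c => by rw [T3_12, T3_smul, T3_12 X b.1])
    (fun b c c' => by
      rw [T3_23, T3_12, T3_add, T3_12 X c.1, T3_12 X c'.1, T3_23 X a.1 c.1, T3_23 X a.1 c'.1])
    (fun r b c => by rw [T3_23, T3_12, T3_smul, T3_12 X c.1, T3_23 X a.1 c.1])
  map_add' a a' := LinearMap.ext₂ fun b c => T3_add a a' b c
  map_smul' r a := LinearMap.ext₂ fun b c => T3_smul r a b c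

end int

end Vale.Agent.P277Z.Gd
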