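import Vale.Agent.P277.H619.Pair
import Vale.Agent.P277Z.Tr.Defs

/-!
# P277Z: wedge products of `2`-forms, on vector spaces and on manifolds
-/

set_option linter.all false
set_option maxSynthPendingDepth 3

open scoped Manifold ContDiff Topology
open ContinuousAlternatingMap Vale.Agent.P267.H928.Int Vale.Agent.P267.H175
open Vale.Agent.P277 Vale.Agent.P277.H60 Vale.Agent.P277.H619 Vale.Agent.P277Z.Tr
open Set Filter MeasureTheory Module

noncomputable section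

namespace Vale.Agent.P277Z.Gd

section flat

variable {E : Type} [NormedAddCommGroup E] [NormedSpace ℝ E] [FiniteDimensional ℝ E] {p q : ℕ}

/-- induction on `1`-forms -/
theorem ind1 {P : (E [⋀^Fin 1]→L[ℝ] ℝ) → Prop} (hz : P 0) (hadd : ∀ a b, P a → P b → P (a + b))
    (hw : ∀ l, P (wedge1 l one0)) (a : E [⋀^Fin 1]→L[ℝ] ℝ) : P a := by
  let Q : ∀ p : ℕ, (E [⋀^Fin p]→L[ℝ] ℝ) → Prop := fun p => match p with
    | 1 => fun a => ∀ c : ℝ, P (c • a)
    | _ => fun _ => True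
  have key : ∀ p a, Q p a := by
    refine alt_induction (fun _ => trivial) ?_ ?_ ?_ ?_
    · rintro (_ | _ | p) <;> simp only [Q]
      intro c; rw [smul_zero]; exact hz
    · rintro (_ | _ | p) a b <;> simp only [Q, imp_self, implies_true]
      intro ha hb c; rw [smul_add]; exact hadd _ _ (ha c) (hb c)
    · rintro (_ | _ | p) r a <;> simp only [Q, imp_self]
      intro ha c; rw [smul_smul]; exact ha _
    · rintro (_ | _ | p) l a <;> simp only [Q, imp_self, implies_true]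
      intro _ c
      rw [eq_one0 a, wedge1_smul_right, smul_smul, ← wedge1_smul_left]
      exact hw _
  simpa using key 1 a 1

/-- induction on `2`-forms -/
theorem ind2 {P : (E [⋀^Fin 2]→L[ℝ] ℝ) → Prop} (hz : P 0) (hadd : ∀ a b, P a → P b → P (a + b))
    (hw : ∀ l m, P (wedge1 l (wedge1 m one0))) (a : E [⋀^Fin 2]→L[ℝ] ℝ) : P a := by
  let Q : ∀ p : ℕ, (E [⋀^Fin p]→L[ℝ] ℝ) → Prop := fun p => match p with
    | 2 => fun a => ∀ c : ℝ, P (c • a)
    | _ => fun _ => True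
  have key : ∀ p a, Q p a := by
    refine alt_induction (fun _ => trivial) ?_ ?_ ?_ ?_
    · rintro (_ | _ | _ | p) <;> simp only [Q]
      intro c; rw [smul_zero]; exact hz
    · rintro (_ | _ | _ | p) a b <;> simp only [Q, imp_self, implies_true]
      intro ha hb c; rw [smul_add]; exact hadd _ _ (ha c) (hb c)
    · rintro (_ | _ | _ | p) r a <;> simp only [Q, imp_self]
      intro ha c; rw [smul_smul]; exact ha _
    · rintro (_ | _ | _ | p) l a <;> simp only [Q, imp_self, implies_true]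
      intro _ c
      rw [← wedge1_smul_left]
      induction a using ind1 with
      | hz => rw [wedge1_zero_right]; exact hz
      | hadd a b ha hb => rw [wedge1_add_right]; exact hadd _ _ ha hb
      | hw m => exact hw _ _
  simpa using key 2 a 1

omit [FiniteDimensional ℝ E] in
theorem wdg_dec (l m : E →L[ℝ] ℝ) (c : E [⋀^Fin q]→L[ℝ] ℝ) :
    wdg (wedge1 l (wedge1 m one0)) c = wedge1 l (wedge1 m c) := by
  rw [wdg_wedge1, wdg_wedge1, wdg_one0]

/-- a `2`-form commutes with a covector -/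
theorem wdg_wedge1_right (a : E [⋀^Fin 2]→L[ℝ] ℝ) (l : E →L[ℝ] ℝ) (c : E [⋀^Fin q]→L[ℝ] ℝ) :
    wdg a (wedge1 l c) = wedge1 l (wdg a c) := by
  induction a using ind2 with
  | hz => rw [wdg_zero_left, wdg_zero_left]; exact (wedge1_zero_right l).symm
  | hadd a b ha hb => rw [wdg_add_left, wdg_add_left, ha, hb]; exact (wedge1_add_right l _ _).symm
  | hw m m' =>
    have h1 := wdg_dec m m' (wedge1 l c)
    have h2 := wdg_dec m m' c
    refine h1.trans (Eq.trans ?_ (congrArg (wedge1 l) h2).symm)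
    rw [wedge1_comm l m, wedge1_comm l m', wedge1_neg_right, neg_neg]

theorem wdg_lcomm (a b : E [⋀^Fin 2]→L[ℝ] ℝ) (c : E [⋀^Fin q]→L[ℝ] ℝ) :
    wdg a (wdg b c) = wdg b (wdg a c) := by
  induction b using ind2 with
  | hz => rw [wdg_zero_left, wdg_zero_left, wdg_zero_right]
  | hadd b b' hb hb' => rw [wdg_add_left, wdg_add_left, wdg_add_right, hb, hb']
  | hw m m' =>
    have h1 := wdg_dec m m' c
    have h2 := wdg_dec m m' (wdg a c)
    refine (congrArg (wdg a) h1).trans (Eq.trans ?_ h2.symm)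
    exact (wdg_wedge1_right a m _).trans (congrArg (wedge1 m) (wdg_wedge1_right a m' c))

theorem wdg_one0_right (a : E [⋀^Fin 2]→L[ℝ] ℝ) : wdg a (one0 : E [⋀^Fin 0]→L[ℝ] ℝ) = a := by
  induction a using ind2 with
  | hz => exact wdg_zero_left _
  | hadd a b ha hb => rw [wdg_add_left, ha, hb]
  | hw m m' => exact wdg_dec m m' _

theorem wdg_comm2 (a b : E [⋀^Fin 2]→L[ℝ] ℝ) : wdg a b = wdg b a := by
  have h := wdg_lcomm a b (one0 : E [⋀^Fin 0]→L[ℝ] ℝ)
  rwa [wdg_one0_right, wdg_one0_right] at h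

/-- associativity when the first factor is a `2`-form -/
theorem wdg_assoc2 (a : E [⋀^Fin 2]→L[ℝ] ℝ) (b : E [⋀^Fin p]→L[ℝ] ℝ) (c : E [⋀^Fin q]→L[ℝ] ℝ) :
    wdg (wdg a b) c = wdg a (wdg b c) := by
  induction a using ind2 with
  | hz => rw [wdg_zero_left, wdg_zero_left]; exact (wdg_zero_left (p := 2) (wdg b c)).symm
  | hadd a a' ha ha' =>
    rw [wdg_add_left, wdg_add_left, ha, ha']; exact (wdg_add_left _ _ _).symm
  | hw m m' =>
    have h1 := wdg_dec m m' b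
    have h2 := wdg_dec m m' (wdg b c)
    refine (congrArg (fun x => wdg x c) h1).trans (Eq.trans ?_ h2.symm)
    exact (wdg_wedge1 m _ c).trans (congrArg (wedge1 m) (wdg_wedge1 m' b c))

/-- associativity when the first factor is a `1`-form -/
theorem wdg_assoc1 (a : E [⋀^Fin 1]→L[ℝ] ℝ) (b : E [⋀^Fin p]→L[ℝ] ℝ) (c : E [⋀^Fin q]→L[ℝ] ℝ) :
    wdg (wdg a b) c = wdg a (wdg b c) := by
  induction a using ind1 with
  | hz => rw [wdg_zero_left, wdg_zero_left]; exact (wdg_zero_left (p := 1) (wdg b c)).symm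
  | hadd a a' ha ha' =>
    rw [wdg_add_left, wdg_add_left, ha, ha']; exact (wdg_add_left _ _ _).symm
  | hw m =>
    have h1 : ∀ {r : ℕ} (x : E [⋀^Fin r]→L[ℝ] ℝ), wdg (wedge1 m one0) x = wedge1 m x :=
      fun x => by rw [wdg_wedge1, wdg_one0]
    exact (congrArg (fun x => wdg x c) (h1 b)).trans ((wdg_wedge1 m b c).trans (h1 _).symm)

end flat

section mfd

variable {E : Type} [NormedAddCommGroup E] [NormedSpace ℝ E] [FiniteDimensional ℝ E] {p q : ℕ}
variable {M : Type*} [TopologicalSpace M] [ChartedSpace E M]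

/-- the wedge product of forms on a manifold -/
def wg (a : M → E [⋀^Fin p]→L[ℝ] ℝ) (b : M → E [⋀^Fin q]→L[ℝ] ℝ) :
    M → E [⋀^Fin (q + p)]→L[ℝ] ℝ := fun y => wdg (a y) (b y)

theorem loc_wg (e : OpenPartialHomeomorph M E) (a : M → E [⋀^Fin p]→L[ℝ] ℝ)
    (b : M → E [⋀^Fin q]→L[ℝ] ℝ) : loc e (wg a b) = fun z => wdg (loc e a z) (loc e b z) := by
  funext z
  exact wdg_comp _ (b (e.symm z)) p (a (e.symm z))

theorem smAt_wg {a : M → E [⋀^Fin p]→L[ℝ] ℝ} {b : M → E [⋀^Fin q]→L[ℝ] ℝ} {y : M}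
    (ha : SmAt a y) (hb : SmAt b y) : SmAt (wg a b) y := by
  rw [SmAt, loc_wg]
  exact contDiffAt_wdg ha hb

theorem dF_wg {a : M → E [⋀^Fin p]→L[ℝ] ℝ} {b : M → E [⋀^Fin q]→L[ℝ] ℝ} {y : M}
    (ha : SmAt a y) (hb : SmAt b y) (h0 : dF b y = 0) : dF (wg a b) y = wdg (dF a y) (b y) := by
  rw [dF, loc_wg, extDeriv_wdg ha.diff hb.diff h0, loc_self]
  rfl

theorem pb_wg {E' : Type} [NormedAddCommGroup E'] [NormedSpace ℝ E'] {X : Type*}
    [TopologicalSpace X] [ChartedSpace E' X] (F : X → M) (a : M → E [⋀^Fin p]→L[ℝ] ℝ)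
    (b : M → E [⋀^Fin q]→L[ℝ] ℝ) : pb E' F (wg a b) = wg (pb E' F a) (pb E' F b) := by
  funext x
  exact wdg_comp _ (b (F x)) p (a (F x))

omit [FiniteDimensional ℝ E] [TopologicalSpace M] [ChartedSpace E M] in
theorem wg_add_left (a a' : M → E [⋀^Fin p]→L[ℝ] ℝ) (b : M → E [⋀^Fin q]→L[ℝ] ℝ) :
    wg (a + a') b = wg a b + wg a' b := funext fun _ => wdg_add_left _ _ _

omit [FiniteDimensional ℝ E] [TopologicalSpace M] [ChartedSpace E M] in
theorem wg_add_right (a : M → E [⋀^Fin p]→L[ℝ] ℝ) (b b' : M → E [⋀^Fin q]→L[ℝ] ℝ) :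
    wg a (b + b') = wg a b + wg a b' := funext fun _ => wdg_add_right _ _ _

omit [FiniteDimensional ℝ E] [TopologicalSpace M] [ChartedSpace E M] in
theorem wg_smul_left (c : ℝ) (a : M → E [⋀^Fin p]→L[ℝ] ℝ) (b : M → E [⋀^Fin q]→L[ℝ] ℝ) :
    wg (c • a) b = c • wg a b := funext fun _ => wdg_smul_left _ _ _

omit [FiniteDimensional ℝ E] [TopologicalSpace M] [ChartedSpace E M] in
theorem wg_smul_right (c : ℝ) (a : M → E [⋀^Fin p]→L[ℝ] ℝ) (b : M → E [⋀^Fin q]→L[ℝ] ℝ) :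
    wg a (c • b) = c • wg a b := funext fun _ => wdg_smul_right _ _ _

omit [TopologicalSpace M] [ChartedSpace E M] in
theorem wg_comm2 (a b : M → E [⋀^Fin 2]→L[ℝ] ℝ) : wg a b = wg b a :=
  funext fun _ => wdg_comm2 _ _

omit [TopologicalSpace M] [ChartedSpace E M] in
theorem wg_lcomm (a b : M → E [⋀^Fin 2]→L[ℝ] ℝ) (c : M → E [⋀^Fin q]→L[ℝ] ℝ) :
    wg a (wg b c) = wg b (wg a c) := funext fun _ => wdg_lcomm _ _ _

omit [TopologicalSpace M] [ChartedSpace E M] in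
theorem wg_assoc2 (a : M → E [⋀^Fin 2]→L[ℝ] ℝ) (b : M → E [⋀^Fin p]→L[ℝ] ℝ)
    (c : M → E [⋀^Fin q]→L[ℝ] ℝ) : wg (wg a b) c = wg a (wg b c) :=
  funext fun _ => wdg_assoc2 _ _ _

variable [IsManifold 𝓘(ℝ, E) ∞ M] [PosAtlas E M] [T2Space M] [CompactSpace M] [MeasurableSpace E]
  [BorelSpace E] (μ : Measure E) [μ.IsAddHaarMeasure]

/-- `∫ da ∧ b = 0` for closed `b` -/
theorem intG_dF_wg (v : Basis (Fin (q + p + 1)) ℝ E) {a : M → E [⋀^Fin p]→L[ℝ] ℝ}
    {b : M → E [⋀^Fin q]→L[ℝ] ℝ} (ha : ∀ y, SmAt a y) (hb : ∀ y, SmAt b y)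
    (h0 : ∀ y, dF b y = 0) : intG μ v (wg (p := p + 1) (q := q) (dF a) b) = 0 := by
  have h : wg (p := p + 1) (q := q) (dF a) b = dF (wg a b) := funext fun y => (dF_wg (ha y) (hb y) (h0 y)).symm
  exact (congrArg (intG μ v) h).trans (intG_dF μ v fun y => smAt_wg (ha y) (hb y))

end mfd

end Vale.Agent.P277Z.Gd
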